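import Mathlib

open Module

namespace Vale.Agent.Results.P344.LinearBound

/-- The primitive `n`-th root of unity `exp(2 π i / n)`. -/
noncomputable def zeta (n : ℕ) : ℂ := Complex.exp (2 * Real.pi * Complex.I / n)

/-- Row `j` of the unnormalised Fourier matrix, as the coefficient vector of a linear form. -/
noncomputable def row (n : ℕ) (j : Fin n) : Fin n → ℂ := fun k => zeta n ^ (j.val * k.val)

/-- `Circuit n m vals`: there is a linear circuit on the inputs `x_0, …, x_{n-1}` and the
constant `0` with exactly `m` gates whose list of computed linear forms (each form is given by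
its coefficient vector; the inputs and `0` are included) is `vals`. -/
inductive Circuit (n : ℕ) : ℕ → List (Fin n → ℂ) → Prop
  | init : Circuit n 0 (0 :: List.ofFn (fun i : Fin n => (Pi.single i 1 : Fin n → ℂ)))
  | add {m : ℕ} {vals : List (Fin n → ℂ)} {u v : Fin n → ℂ} :
      Circuit n m vals → u ∈ vals → v ∈ vals → Circuit n (m + 1) ((u + v) :: vals)
  | sub {m : ℕ} {vals : List (Fin n → ℂ)} {u v : Fin n → ℂ} :
      Circuit n m vals → u ∈ vals → v ∈ vals → Circuit n (m + 1) ((u - v) :: vals)
  | smul {m : ℕ} {vals : List (Fin n → ℂ)} {u : Fin n → ℂ} (c : ℂ) :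
      Circuit n m vals → u ∈ vals → Circuit n (m + 1) ((c • u) :: vals)

lemma finrank_inf_ker {n : ℕ} (P : Submodule ℂ (Fin n → ℂ)) (f : (Fin n → ℂ) →ₗ[ℂ] ℂ) :
    finrank ℂ P ≤ finrank ℂ (P ⊓ LinearMap.ker f : Submodule ℂ (Fin n → ℂ)) + 1 := by
  have h1 := Submodule.finrank_sup_add_finrank_inf_eq P (LinearMap.ker f)
  have h2 := LinearMap.finrank_range_add_finrank_ker f
  have h3 : finrank ℂ (LinearMap.range f) ≤ 1 := by
    have := Submodule.finrank_le (LinearMap.range f)
    simpa using this
  have h4 := Submodule.finrank_le (P ⊔ LinearMap.ker f)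
  omega

/-- number of output lines already reached -/
noncomputable def reached (n : ℕ) (vals : List (Fin n → ℂ)) : Finset (Fin n) := by
  classical
  exact Finset.univ.filter (fun j => ∃ v ∈ vals, ∃ c : ℂ, c ≠ 0 ∧ v = c • row n j)

lemma mem_reached {n : ℕ} {vals : List (Fin n → ℂ)} {j : Fin n} :
    j ∈ reached n vals ↔ ∃ v ∈ vals, ∃ c : ℂ, c ≠ 0 ∧ v = c • row n j := by
  classical
  simp [reached]

lemma zeta_prim {n : ℕ} (hn : n ≠ 0) : IsPrimitiveRoot (zeta n) n :=
  Complex.isPrimitiveRoot_exp n hn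

lemma row_ne_zero {n : ℕ} (hn : n ≠ 0) (j k : Fin n) : row n j k ≠ 0 :=
  pow_ne_zero _ ((zeta_prim hn).ne_zero hn)

lemma row_inj {n : ℕ} (hn : 2 ≤ n) {j j' : Fin n} {c c' : ℂ}
    (h : c • row n j = c' • row n j') (hc : c ≠ 0) : j = j' := by
  have h0 := congrFun h ⟨0, by omega⟩
  have h1 := congrFun h ⟨1, by omega⟩
  simp only [row, Pi.smul_apply, smul_eq_mul, mul_zero, pow_zero, mul_one] at h0 h1
  subst h0
  have h2 : zeta n ^ j.val = zeta n ^ j'.val := mul_left_cancel₀ hc h1
  exact Fin.ext ((zeta_prim (by omega)).pow_inj j.isLt j'.isLt h2)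

/-- invariant for additions -/
def InvA (n A : ℕ) (vals : List (Fin n → ℂ)) : Prop :=
  ∃ P : Submodule ℂ (Fin n → ℂ),
    (∀ v ∈ vals, ∀ a b, v a ≠ 0 → v b ≠ 0 → ∀ y ∈ P, y a = y b) ∧
    n ≤ finrank ℂ P + A ∧ n + (reached n vals).card ≤ finrank ℂ P + A + 1

/-- invariant for scalar gates -/
def InvS (n s : ℕ) (k : Fin n) (vals : List (Fin n → ℂ)) : Prop :=
  ∃ T : Finset ℂ, T.card ≤ 1 + s ∧ ∀ v ∈ vals, v k ∈ Submodule.span ℚ (T : Set ℂ)

lemma reached_cons_le {n : ℕ} (hn : 2 ≤ n) (w : Fin n → ℂ) (vals : List (Fin n → ℂ)) :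
    (reached n (w :: vals)).card ≤ (reached n vals).card + 1 := by
  classical
  by_cases hw : ∃ j, ∃ c : ℂ, c ≠ 0 ∧ w = c • row n j
  · obtain ⟨j0, c0, hc0, hw0⟩ := hw
    have hsub : reached n (w :: vals) ⊆ insert j0 (reached n vals) := by
      intro j hj
      rw [mem_reached] at hj
      obtain ⟨v, hv, c, hc, hvc⟩ := hj
      rcases List.mem_cons.1 hv with rfl | hv'
      · have : j0 = j := row_inj hn (hw0.symm.trans hvc) hc0
        simp [this]
      · exact Finset.mem_insert_of_mem (mem_reached.2 ⟨v, hv', c, hc, hvc⟩)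
    exact (Finset.card_le_card hsub).trans (Finset.card_insert_le _ _)
  · have hsub : reached n (w :: vals) ⊆ reached n vals := by
      intro j hj
      rw [mem_reached] at hj
      obtain ⟨v, hv, c, hc, hvc⟩ := hj
      rcases List.mem_cons.1 hv with rfl | hv'
      · exact absurd ⟨j, c, hc, hvc⟩ hw
      · exact mem_reached.2 ⟨v, hv', c, hc, hvc⟩
    exact (Finset.card_le_card hsub).trans (Nat.le_succ _)

/-- the step of the addition invariant for a gate whose support lies in the union of two
earlier supports -/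
lemma invA_step {n A : ℕ} (hn : 2 ≤ n) {vals : List (Fin n → ℂ)} {u v w : Fin n → ℂ}
    (h : InvA n A vals) (hu : u ∈ vals) (hv : v ∈ vals)
    (hw : ∀ a, w a ≠ 0 → u a ≠ 0 ∨ v a ≠ 0) : InvA n (A + 1) (w :: vals) := by
  classical
  obtain ⟨P, hP, h1, h2⟩ := h
  have hcard := reached_cons_le hn w vals
  by_cases hr : (reached n vals).card = 0
  · -- no output line so far
    by_cases hex : (∃ a, u a ≠ 0) ∧ (∃ b, v b ≠ 0)
    · obtain ⟨⟨a0, ha0⟩, ⟨b0, hb0⟩⟩ := hex
      let f : (Fin n → ℂ) →ₗ[ℂ] ℂ :=
        (LinearMap.proj a0 : (Fin n → ℂ) →ₗ[ℂ] ℂ) - (LinearMap.proj b0 : (Fin n → ℂ) →ₗ[ℂ] ℂ)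
      have hf := finrank_inf_ker P f
      refine ⟨P ⊓ LinearMap.ker f, ?_, by omega, by omega⟩
      intro x hx a b hxa hxb y hy
      have hyP : y ∈ P := hy.1
      have hy0 : y a0 = y b0 := by
        have : f y = 0 := hy.2
        simpa [f, sub_eq_zero] using this
      rcases List.mem_cons.1 hx with rfl | hx'
      · rcases hw a hxa with ha | ha <;> rcases hw b hxb with hb | hb
        · exact hP u hu a b ha hb y hyP
        · rw [hP u hu a a0 ha ha0 y hyP, hy0, hP v hv b0 b hb0 hb y hyP]
        · rw [hP v hv a b0 ha hb0 y hyP, ← hy0, hP u hu a0 b ha0 hb y hyP]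
        · exact hP v hv a b ha hb y hyP
      · exact hP x hx' a b hxa hxb y hyP
    · refine ⟨P, ?_, by omega, by omega⟩
      intro x hx a b hxa hxb y hy
      rcases List.mem_cons.1 hx with rfl | hx'
      · rcases hw a hxa with ha | ha <;> rcases hw b hxb with hb | hb
        · exact hP u hu a b ha hb y hy
        · exact absurd ⟨⟨a, ha⟩, ⟨b, hb⟩⟩ hex
        · exact absurd ⟨⟨b, hb⟩, ⟨a, ha⟩⟩ hex
        · exact hP v hv a b ha hb y hy
      · exact hP x hx' a b hxa hxb y hy
  · -- some output line is present, every member of P is constant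
    obtain ⟨j, hj⟩ := Finset.card_pos.1 (Nat.pos_of_ne_zero hr)
    obtain ⟨x0, hx0, c, hc, hxc⟩ := mem_reached.1 hj
    have hfull : ∀ a, x0 a ≠ 0 := by
      intro a
      rw [hxc]
      simpa using ⟨hc, row_ne_zero (by omega) j a⟩
    refine ⟨P, ?_, by omega, by omega⟩
    intro x _ a b _ _ y hy
    exact hP x0 hx0 a b (hfull a) (hfull b) y hy

lemma invA_smul {n A : ℕ} {vals : List (Fin n → ℂ)} {u : Fin n → ℂ} (c : ℂ)
    (h : InvA n A vals) (hu : u ∈ vals) : InvA n A ((c • u) :: vals) := by
  classical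
  obtain ⟨P, hP, h1, h2⟩ := h
  have hsame : reached n ((c • u) :: vals) ⊆ reached n vals := by
    intro j hj
    rw [mem_reached] at hj
    obtain ⟨v, hv, c', hc', hvc⟩ := hj
    rcases List.mem_cons.1 hv with rfl | hv'
    · have hc : c ≠ 0 := by
        rintro rfl
        rw [zero_smul] at hvc
        by_cases hn : n = 0
        · subst hn; exact j.elim0
        · have := congrFun hvc j
          simp only [Pi.zero_apply, Pi.smul_apply, smul_eq_mul] at this
          exact (mul_ne_zero hc' (row_ne_zero hn j j)) this.symm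
      refine mem_reached.2 ⟨u, hu, c⁻¹ * c', mul_ne_zero (inv_ne_zero hc) hc', ?_⟩
      rw [mul_smul, ← hvc, smul_smul, inv_mul_cancel₀ hc, one_smul]
    · exact mem_reached.2 ⟨v, hv', c', hc', hvc⟩
  have hcard := Finset.card_le_card hsame
  refine ⟨P, ?_, h1, by omega⟩
  intro x hx a b hxa hxb y hy
  rcases List.mem_cons.1 hx with rfl | hx'
  · have ha : u a ≠ 0 := by
      intro h0; apply hxa; simp [h0]
    have hb : u b ≠ 0 := by
      intro h0; apply hxb; simp [h0]
    exact hP u hu a b ha hb y hy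
  · exact hP x hx' a b hxa hxb y hy

lemma invariants {n : ℕ} (hn : 2 ≤ n) (k : Fin n) {m : ℕ} {vals : List (Fin n → ℂ)}
    (h : Circuit n m vals) : ∃ A s, A + s = m ∧ InvA n A vals ∧ InvS n s k vals := by
  classical
  induction h with
  | init =>
    refine ⟨0, 0, rfl, ⟨⊤, ?_, by simp, ?_⟩, ⟨{1}, by simp, ?_⟩⟩
    · intro v hv a b hva hvb y _
      rcases List.mem_cons.1 hv with rfl | hv'
      · exact absurd rfl hva
      · obtain ⟨i, rfl⟩ := (List.mem_ofFn' _ _).1 hv'
        have ha : a = i := by
          by_contra hne; exact hva (by simp [Pi.single_apply, hne])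
        have hb : b = i := by
          by_contra hne; exact hvb (by simp [Pi.single_apply, hne])
        rw [ha, hb]
    · have hemp : reached n (0 :: List.ofFn (fun i : Fin n => (Pi.single i 1 : Fin n → ℂ))) = ∅ := by
        rw [Finset.eq_empty_iff_forall_notMem]
        intro j hj
        obtain ⟨v, hv, c, hc, hvc⟩ := mem_reached.1 hj
        have hfull : ∀ a, v a ≠ 0 := by
          intro a
          rw [hvc]
          simpa using ⟨hc, row_ne_zero (by omega) j a⟩
        rcases List.mem_cons.1 hv with rfl | hv'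
        · exact hfull j rfl
        · obtain ⟨i, rfl⟩ := (List.mem_ofFn' _ _).1 hv'
          by_cases hi : i = ⟨0, by omega⟩
          · apply hfull ⟨1, by omega⟩
            rw [hi]; simp [Pi.single_apply]
          · apply hfull ⟨0, by omega⟩
            simp [Pi.single_apply, Ne.symm hi]
      rw [hemp]; simp
    · intro v hv
      rcases List.mem_cons.1 hv with rfl | hv'
      · simp
      · obtain ⟨i, rfl⟩ := (List.mem_ofFn' _ _).1 hv'
        by_cases hik : k = i
        · subst hik
          simp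
        · simp [Pi.single_apply, hik]
  | @add m vals u v _ hu hv ih =>
    obtain ⟨A, s, hm, hA, T, hT, hS⟩ := ih
    refine ⟨A + 1, s, by omega, invA_step hn hA hu hv ?_, T, hT, ?_⟩
    · intro a ha
      by_contra hcon
      push Not at hcon
      apply ha; simp [hcon.1, hcon.2]
    · intro x hx
      rcases List.mem_cons.1 hx with rfl | hx'
      · exact Submodule.add_mem _ (hS u hu) (hS v hv)
      · exact hS x hx'
  | @sub m vals u v _ hu hv ih =>
    obtain ⟨A, s, hm, hA, T, hT, hS⟩ := ih
    refine ⟨A + 1, s, by omega, invA_step hn hA hu hv ?_, T, hT, ?_⟩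
    · intro a ha
      by_contra hcon
      push Not at hcon
      apply ha; simp [hcon.1, hcon.2]
    · intro x hx
      rcases List.mem_cons.1 hx with rfl | hx'
      · exact Submodule.sub_mem _ (hS u hu) (hS v hv)
      · exact hS x hx'
  | @smul m vals u c _ hu ih =>
    obtain ⟨A, s, hm, hA, T, hT, hS⟩ := ih
    refine ⟨A, s + 1, by omega, invA_smul c hA hu, insert (c * u k) T, ?_, ?_⟩
    · exact (Finset.card_insert_le _ _).trans (by omega)
    · intro x hx
      have hmono : Submodule.span ℚ (T : Set ℂ) ≤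
          Submodule.span ℚ ((insert (c * u k) T : Finset ℂ) : Set ℂ) :=
        Submodule.span_mono (by simp)
      rcases List.mem_cons.1 hx with rfl | hx'
      · exact Submodule.subset_span (by simp)
      · exact hmono (hS x hx')

lemma totient_le_card {n : ℕ} (hn : 2 ≤ n) (T : Finset ℂ)
    (h : ∀ j : ℕ, j < n → zeta n ^ j ∈ Submodule.span ℚ (T : Set ℂ)) :
    Nat.totient n ≤ T.card := by
  classical
  have hli := linearIndependent_pow (K := ℚ) (zeta n)
  have hdeg : (minpoly ℚ (zeta n)).natDegree = Nat.totient n := by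
    rw [← Polynomial.cyclotomic_eq_minpoly_rat (zeta_prim (by omega)) (by omega),
      Polynomial.natDegree_cyclotomic]
  have hle := linearIndependent_le_span' _ hli (T : Set ℂ) (by
    rintro _ ⟨i, rfl⟩
    apply h
    have h1 : i.val < Nat.totient n := hdeg ▸ i.isLt
    exact lt_of_lt_of_le h1 (Nat.totient_le n))
  simp only [Cardinal.mk_fintype, Fintype.card_fin, Finset.coe_sort_coe, Fintype.card_coe,
    Nat.cast_le] at hle
  omega

/-- **Main result.**  Every linear circuit (gates `u + v`, `u - v`, `c • u` with arbitrary complex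
scalars `c`, each gate of cost one) that computes all `n` rows of the unnormalised Fourier matrix
`F_n`, `n ≥ 2`, has at least `2 n + φ(n) - 3` gates. -/
theorem result (n : ℕ) (hn : 2 ≤ n) (m : ℕ) (vals : List (Fin n → ℂ))
    (hc : Circuit n m vals) (hout : ∀ j : Fin n, row n j ∈ vals) :
    2 * n + Nat.totient n ≤ m + 3 := by
  classical
  obtain ⟨A, s, hm, ⟨P, hP, _, h2⟩, T, hT, hS⟩ := invariants hn ⟨1, by omega⟩ hc
  -- scalar gates
  have hs : Nat.totient n ≤ 1 + s := by
    refine (totient_le_card hn T ?_).trans hT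
    intro j hj
    have := hS (row n ⟨j, hj⟩) (hout ⟨j, hj⟩)
    simpa [row] using this
  -- all lines reached
  have hreach : (reached n vals).card = n := by
    have : reached n vals = Finset.univ := by
      rw [Finset.eq_univ_iff_forall]
      intro j
      exact mem_reached.2 ⟨row n j, hout j, 1, one_ne_zero, (one_smul _ _).symm⟩
    rw [this]; simp
  -- P consists of constant vectors
  have hPle : P ≤ Submodule.span ℂ {(fun _ => 1 : Fin n → ℂ)} := by
    intro y hy
    rw [Submodule.mem_span_singleton]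
    refine ⟨y ⟨0, by omega⟩, ?_⟩
    ext a
    have := hP (row n ⟨0, by omega⟩) (hout _) ⟨0, by omega⟩ a
      (row_ne_zero (by omega) _ _) (row_ne_zero (by omega) _ _) y hy
    simp [this]
  have hfin : finrank ℂ P ≤ 1 :=
    (Submodule.finrank_mono hPle).trans (by
      have := finrank_span_le_card (R := ℂ) ({(fun _ => 1 : Fin n → ℂ)} : Set (Fin n → ℂ))
      simpa using this)
  omega

end Vale.Agent.Results.P344.LinearBound
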